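import Vale.Agent.P218CQ.Geo
import Vale.Agent.P218CD.Disc

/-! # Jets and moments as continuous linear maps -/

open Set Filter Metric Topology MeasureTheory
open scoped ContDiff

noncomputable section

set_option linter.unusedSectionVars false
set_option linter.unusedVariables false
set_option maxSynthPendingDepth 3

namespace Vale.Agent.P218CL

open Vale.Agent.P218VA Vale.Agent.P218MP Vale.Agent.P272.K.LIN Vale.Agent.P218CO
open Vale.Agent.P218CQ
open Vale.Agent.P218GA (pol)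

section calcu
variable {V W : Type*} [NormedAddCommGroup V] [NormedSpace ℂ V] [NormedAddCommGroup W]
  [NormedSpace ℂ W]

lemma hasDerivAt_ray (q : V) : HasDerivAt (fun t : ℂ => t • q) q 0 := by
  simpa using (hasDerivAt_id (0 : ℂ)).smul_const q

lemma comp_zero {Ψ : V → W} {l : V →L[ℂ] W} (h : HasFDerivAt Ψ l 0) {γ : ℂ → V} {γ' : V}
    (hγ : HasDerivAt γ γ' 0) (h0 : γ 0 = 0) : HasDerivAt (fun t => Ψ (γ t)) (l γ') 0 :=
  HasFDerivAt.comp_hasDerivAt (l := Ψ) 0 (by rwa [h0]) hγ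

/-- the derivative of a function which is real along a real ray is real -/
lemma im_deriv {f : ℂ → ℂ} {d : ℂ} (h : HasDerivAt f d 0)
    (hr : ∀ᶠ t : ℝ in 𝓝 0, (f t).im = 0) : d.im = 0 := by
  have h1 : HasDerivAt (fun t : ℝ => f t) d 0 := by
    have := HasDerivAt.comp_ofReal (e := f) (e' := d) (z := (0 : ℝ)) (by simpa using h)
    exact this
  have h2 : HasDerivAt (fun t : ℝ => (f t).im) d.im 0 :=
    Complex.imCLM.hasFDerivAt.comp_hasDerivAt 0 h1
  exact h2.unique ((hasDerivAt_const (0 : ℝ) (0 : ℝ)).congr_of_eventuallyEq hr)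

/-- a continuous factor times a function which vanishes at the point -/
lemma hasDerivAt_mul_zero {g f : ℂ → ℂ} {d : ℂ} (hg : ContinuousAt g 0) (hf : HasDerivAt f d 0)
    (h0 : f 0 = 0) : HasDerivAt (fun t => g t * f t) (g 0 * d) 0 := by
  rw [hasDerivAt_iff_tendsto_slope] at hf ⊢
  refine ((hg.tendsto.mono_left nhdsWithin_le_nhds).mul hf).congr fun t => ?_
  simp only [slope_def_field, h0, mul_zero, sub_zero]
  ring

/-- the derivative of a function of a parameter and a point along a curve -/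
lemma hasDerivAt_split {F : ℂ × V → W} (hF : DifferentiableAt ℂ F (0, 0)) {a : W}
    {A : V →L[ℂ] W} (ha : HasDerivAt (fun t => F (t, 0)) a 0)
    (hA : HasFDerivAt (fun v => F (0, v)) A 0) {γ : ℂ → V} {γ' : V} (hγ : HasDerivAt γ γ' 0)
    (h0 : γ 0 = 0) : HasDerivAt (fun t => F (t, γ t)) (A γ' + a) 0 := by
  have hF' : HasFDerivAt F (fderiv ℂ F (0, 0)) 0 := hF.hasFDerivAt
  have h1 := comp_zero hF' ((hasDerivAt_id (0 : ℂ)).prodMk hγ) (by simp [h0])
  have h2 := comp_zero hF' ((hasDerivAt_id (0 : ℂ)).prodMk (hasDerivAt_const (0 : ℂ) (0 : V)))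
    (by simp)
  have h3 := comp_zero hF' ((hasDerivAt_const (0 : ℂ) (0 : ℂ)).prodMk hγ) (by simp [h0])
  have h4 := comp_zero hA hγ h0
  rw [← h2.unique ha, ← h3.unique h4, ← map_add]
  simpa using h1

end calcu

section dir
variable {D : Type*} [NormedAddCommGroup D] [NormedSpace ℝ D]

/-- the directional jet as a function of the full jet -/
def dirL (d1 d2 : D) : Jet D →L[ℝ] J2 ℝ :=
  LinearMap.mkContinuousOfExistsBound
    { toFun := fun j => ((j.1, j.2.1 d1, j.2.1 d2), (j.2.2 d1 d1, j.2.2 d2 d1, j.2.2 d2 d2))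
      map_add' := fun _ _ => rfl
      map_smul' := fun _ _ => rfl }
    (by
      refine ⟨(1 + ‖d1‖ + ‖d2‖) ^ 2, fun j => ?_⟩
      have h0 : ‖j.1‖ ≤ ‖j‖ := norm_fst_le j
      have h1 : ‖j.2.1‖ ≤ ‖j‖ := (norm_fst_le j.2).trans (norm_snd_le j)
      have h2 : ‖j.2.2‖ ≤ ‖j‖ := (norm_snd_le j.2).trans (norm_snd_le j)
      have a1 := norm_nonneg d1
      have a2 := norm_nonneg d2
      have a3 := norm_nonneg j
      set r := 1 + ‖d1‖ + ‖d2‖ with hr
      have r1 : 1 ≤ r := by linarith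
      have b1 : ∀ d : D, ‖d‖ ≤ r → ‖j.2.1 d‖ ≤ r ^ 2 * ‖j‖ := fun d hd =>
        ((j.2.1.le_opNorm d).trans (mul_le_mul h1 hd (norm_nonneg _) a3)).trans
          (by nlinarith [mul_nonneg a3 (sub_nonneg.2 r1)])
      have b2 : ∀ d d' : D, ‖d‖ ≤ r → ‖d'‖ ≤ r → ‖j.2.2 d d'‖ ≤ r ^ 2 * ‖j‖ := fun d d' hd hd' =>
        (j.2.2.le_opNorm₂ d d').trans (by
          calc _ ≤ ‖j‖ * r * r := by gcongr
            _ = _ := by ring)
      have c1 : ‖d1‖ ≤ r := by linarith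
      have c2 : ‖d2‖ ≤ r := by linarith
      have c0 : ‖j.1‖ ≤ r ^ 2 * ‖j‖ := h0.trans (by nlinarith [mul_nonneg a3 (sub_nonneg.2 r1)])
      exact max_le (max_le c0 (max_le (b1 _ c1) (b1 _ c2)))
        (max_le (b2 _ _ c1 c1) (max_le (b2 _ _ c2 c1) (b2 _ _ c2 c2))))

lemma cj_eq_dirL {d1 d2 : D} {f : D → ℝ} {y : D} (hf : ContDiffAt ℝ 2 f y) :
    cj d1 d2 f y = dirL d1 d2 (jet f y) := by
  unfold cj
  rw [pd_pd_eq hf, pd_pd_eq hf, pd_pd_eq hf]
  rfl

lemma star_jmap (j : J2 ℝ) : star (jmap Complex.ofRealCLM j) = jmap Complex.ofRealCLM j := by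
  simp [Prod.star_def]

lemma star_cj {d1 d2 : D} {f : D → ℝ} {y : D} (hf : ContDiffAt ℝ 2 f y) :
    star (cj d1 d2 (fun z => (f z : ℂ)) y) = cj d1 d2 (fun z => (f z : ℂ)) y := by
  rw [show cj d1 d2 (fun z => (f z : ℂ)) y = _ from cj_clm Complex.ofRealCLM hf, star_jmap]

end dir

variable {σ M : Type} [TopologicalSpace M] [ChartedSpace E2 M] {𝒞 : Cov E2 M}

lemma fnC_ofR' (v : VR 𝒞) : fnC (Cx.ofR v) = fun y => (fnR v y : ℂ) := by
  funext y
  have h : fnR (0 : VR 𝒞) y = 0 := rfl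
  simp [fnC, h]

lemma fnC_smul' (t : ℂ) (v : VC 𝒞) : fnC (t • v) = fun y => t * fnC v y := by
  funext y
  have h1 : ∀ (a b : ℝ) (u u' : VR 𝒞), fnR (a • u - b • u') y = a * fnR u y - b * fnR u' y :=
    fun _ _ _ _ => rfl
  have h2 : ∀ (a b : ℝ) (u u' : VR 𝒞), fnR (a • u + b • u') y = a * fnR u y + b * fnR u' y :=
    fun _ _ _ _ => rfl
  simp only [fnC, Cx.re_smul, Cx.im_smul, h1, h2]
  apply Complex.ext
  · simp
  · simp; ring

lemma fnC_zero' : fnC (0 : VC 𝒞) = fun _ => 0 := by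
  have := fnC_smul' 0 (0 : VC 𝒞)
  simpa using this

lemma VR_ext {u : VR 𝒞} (h : ∀ y, fnR u y = 0) : u = 0 := 𝒞.C2_ext (α := 1 / 2) h

variable [T2Space M] [RSm E2 M]

/-- the jet in a parametrisation is a continuous linear map, real on real functions -/
lemma exists_jetL {D : Type*} [NormedAddCommGroup D] [NormedSpace ℝ D] (d1 d2 : D)
    {e : OpenPartialHomeomorph M E2} (he : e ∈ atlas E2 M) {T : D → E2} {y : D}
    (hT : ContDiffAt ℝ 2 T y) (hy : T y ∈ e.target) (𝒞 : Cov E2 M) :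
    ∃ L : VC 𝒞 →L[ℂ] J2 ℂ, (∀ v, cj d1 d2 (fun z => fnC v (e.symm (T z))) y = L v) ∧
      ∀ v : VC 𝒞, v.im = 0 → star (L v) = L v := by
  let A : VR 𝒞 →L[ℝ] Jet E2 := ∑ i, ((rec 𝒞 e i (T y)).comp (Hol.evalL (e.symm (T y)))).comp
    (𝒞.J (1 / 2) i)
  have hA : ∀ u : VR 𝒞, A u = jet (fun z => fnR u (e.symm z)) (T y) := fun u => by
    refine ((sum_apply _ _ _).trans (Finset.sum_congr rfl fun i _ => ?_)).trans
      (jet_eq_sum 𝒞 he (𝒞.fn_ck (α := 1 / 2) u) hy).symm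
    exact congrArg (rec 𝒞 e i (T y)) (𝒞.J_apply i u _)
  let R : VR 𝒞 →L[ℝ] J2 ℝ :=
    ((dirL d1 d2).comp (JT (fderiv ℝ T y) (fderiv ℝ (fderiv ℝ T) y))).comp A
  have h1 : ∀ u : VR 𝒞, ContDiffAt ℝ 2 (fun z => fnR u (e.symm z)) (T y) := fun u =>
    (ckAt_fnR u _).at_target he hy
  have h2 : ∀ u : VR 𝒞, ContDiffAt ℝ 2 (fun z => (fnR u (e.symm (T z)) : ℂ)) y := fun u =>
    Complex.ofRealCLM.contDiff.contDiffAt.comp y ((h1 u).comp y hT)
  have hR : ∀ u : VR 𝒞, cj d1 d2 (fun z => (fnR u (e.symm (T z)) : ℂ)) y =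
      jmap Complex.ofRealCLM (R u) := fun u => by
    have h3 : ContDiffAt ℝ 2 (fun z => fnR u (e.symm (T z))) y := (h1 u).comp y hT
    refine (cj_clm Complex.ofRealCLM h3).trans (congrArg _ ((cj_eq_dirL h3).trans ?_))
    rw [jet_comp (g := fun z => fnR u (e.symm z)) (h1 u) hT, ← hA]
    rfl
  refine ⟨Cx.lift ((jmap Complex.ofRealCLM).comp R), fun v => ?_, fun v hv => ?_⟩
  · show _ = jmap Complex.ofRealCLM (R v.re) + Complex.I • jmap Complex.ofRealCLM (R v.im)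
    rw [← hR, ← hR, ← cj_csmul Complex.I (h2 _), ← cj_add (h2 _) ((h2 _).const_smul _)]
    rfl
  · rw [Cx.eq_ofR hv, Cx.lift_ofR]
    exact star_jmap _

lemma exists_chartL {e : OpenPartialHomeomorph M E2} (he : e ∈ atlas E2 M) {x : M}
    (hx : x ∈ e.source) (𝒞 : Cov E2 M) :
    ∃ L : VC 𝒞 →L[ℂ] J2 ℂ, (∀ v, cj u1 u2 (cX e (fnC v)) (e x) = L v) ∧
      ∀ v : VC 𝒞, v.im = 0 → star (L v) = L v :=
  exists_jetL u1 u2 he (T := id) contDiffAt_id (e.map_source hx) 𝒞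

lemma exists_polL (𝓔 : Ends σ M) (j : σ) {p : ℝ × ℝ} (hp : 𝓔.w0 < p.1) (𝒞 : Cov E2 M) :
    ∃ L : VC 𝒞 →L[ℂ] J2 ℂ, (∀ v, pj (fun q => fnC v (𝓔.Y j q)) p = L v) ∧
      ∀ v : VC 𝒞, v.im = 0 → star (L v) = L v :=
  exists_jetL _ _ (𝓔.mem j) contDiff_pol.contDiffAt (Ends.pol_mem j hp) 𝒞

variable [CompactSpace M] [MeasurableSpace M] [OpensMeasurableSpace M]

lemma integrable_cont {μ0 : Measure M} [IsFiniteMeasure μ0] {f : M → ℝ} (hf : Continuous f) :
    Integrable f μ0 := by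
  obtain ⟨C, hC⟩ := isCompact_univ.exists_bound_of_continuousOn hf.continuousOn
  exact Integrable.of_bound hf.aestronglyMeasurable C
    (Eventually.of_forall fun x => hC x (mem_univ x))

/-- the moments are continuous linear maps -/
lemma exists_momL {τ : Type} [Fintype τ] (μ0 : Measure M) [IsFiniteMeasure μ0] {e' : τ → M → ℝ}
    (he : ∀ i, Continuous (e' i)) (𝒞 : Cov E2 M) :
    ∃ L : VC 𝒞 →L[ℂ] (τ → ℂ), (∀ v, mom μ0 e' (fnC v) = L v) ∧
      ∀ (v : VC 𝒞) i, L v i = (∫ x, e' i x * fnR v.re x ∂μ0 : ℝ) +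
        Complex.I * (∫ x, e' i x * fnR v.im x ∂μ0 : ℝ) := by
  have hc : ∀ u : VR 𝒞, Continuous (fnR u) := fun u =>
    continuous_iff_continuousAt.2 fun x => (ckAt_fnR u x).continuousAt
  have hi : ∀ (u : VR 𝒞) i, Integrable (fun x => e' i x * fnR u x) μ0 := fun u i =>
    integrable_cont ((he i).mul (hc u))
  let R : τ → VR 𝒞 →L[ℝ] ℝ := fun i => LinearMap.mkContinuous
    { toFun := fun u => ∫ x, e' i x * fnR u x ∂μ0
      map_add' := fun u u' => by
        rw [← integral_add (hi u i) (hi u' i)]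
        exact integral_congr_ae (Eventually.of_forall fun x => mul_add _ _ _)
      map_smul' := fun a u => by
        rw [RingHom.id_apply, smul_eq_mul, ← integral_const_mul]
        exact integral_congr_ae (Eventually.of_forall fun x => mul_left_comm _ a _) }
    (∫ x, |e' i x| ∂μ0) fun u => by
      rw [← integral_mul_const]
      refine norm_integral_le_of_norm_le ((integrable_cont (he i).abs).mul_const _)
        (Eventually.of_forall fun x => ?_)
      rw [Real.norm_eq_abs, abs_mul]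
      exact mul_le_mul_of_nonneg_left (abs_fnR_le u x) (abs_nonneg _)
  refine ⟨ContinuousLinearMap.pi fun i => Cx.lift (Complex.ofRealCLM.comp (R i)), fun v => ?_,
    fun v i => rfl⟩
  funext i
  show _ = ((∫ x, e' i x * fnR v.re x ∂μ0 : ℝ) : ℂ) +
    Complex.I * ((∫ x, e' i x * fnR v.im x ∂μ0 : ℝ) : ℂ)
  rw [← integral_complex_ofReal, ← integral_complex_ofReal, ← integral_const_mul,
    ← integral_add (hi _ i).ofReal ((hi _ i).ofReal.const_mul _)]
  refine integral_congr_ae (Eventually.of_forall fun x => ?_)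
  simp only [fnC]
  push_cast
  ring

end Vale.Agent.P218CL
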