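import Vale.Agent.P218CL.Jet

/-! # The pointwise linearisation of the system -/

open Set Filter Metric Topology MeasureTheory
open scoped ContDiff

noncomputable section

set_option linter.unusedSectionVars false
set_option linter.unusedVariables false
set_option maxSynthPendingDepth 3

namespace Vale.Agent.P218CL

open Vale.Agent.P218VA Vale.Agent.P218MP Vale.Agent.P272.K.LIN Vale.Agent.P218CO
open Vale.Agent.P218CQ
open Vale.Agent.P218GA (pol)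

section op
variable {o : EndOp} {s : ℝ} {p : ℝ × ℝ}

lemma diff_E (ho : o.Good s) (hp : s < p.1) : DifferentiableAt ℂ (o.E p) 0 := by
  have ha : DifferentiableAt ℂ (o.a p) ((0 : J2 ℂ).1) := (ho.mixa p hp).hol.self_of_nhds
  have hb : DifferentiableAt ℂ (o.b p) ((0 : J2 ℂ).1) := (ho.mixb p hp).hol.self_of_nhds
  have ha' := ha.comp (0 : J2 ℂ) differentiableAt_fst
  have hb' := hb.comp (0 : J2 ℂ) differentiableAt_fst
  have h1 : DifferentiableAt ℂ (fun z : T3 ℂ × J2 ℂ × ℂ => pair z.1 (o.H p + z.2.1.2) + z.2.2)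
      (o.a p 0, 0, o.b p 0) := by unfold pair; fun_prop
  exact h1.comp (0 : J2 ℂ) (ha'.prodMk (differentiableAt_id.prodMk hb'))

lemma diff_COL (ho : o.Good s) (hp : s < p.1) :
    DifferentiableAt ℂ (fun q : J2 ℂ × T3 ℂ => o.COL s p q.1 q.2) 0 := by
  have hu : DifferentiableAt ℂ (fun q : J2 ℂ × T3 ℂ => u1j s p.1 q.1.1 q.2) 0 := by
    unfold u1j jm1; fun_prop
  have ha : DifferentiableAt ℂ (o.a p) 0 := (ho.mixa p hp).hol.self_of_nhds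
  have hb : DifferentiableAt ℂ (o.b p) 0 := (ho.mixb p hp).hol.self_of_nhds
  have ha' : DifferentiableAt ℂ (fun q : J2 ℂ × T3 ℂ => o.a p (u1j s p.1 q.1.1 q.2)) 0 :=
    DifferentiableAt.comp (g := o.a p) 0 (by simpa using ha) hu
  have hb' : DifferentiableAt ℂ (fun q : J2 ℂ × T3 ℂ => o.b p (u1j s p.1 q.1.1 q.2)) 0 :=
    DifferentiableAt.comp (g := o.b p) 0 (by simpa using hb) hu
  have hb'' : DifferentiableAt ℂ (fun q : J2 ℂ × T3 ℂ => o.b p q.2) 0 :=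
    DifferentiableAt.comp (g := o.b p) 0 hb differentiableAt_snd
  have h1 : Differentiable ℂ (fun z : T3 ℂ × J2 ℂ × T3 ℂ =>
      pair z.1 ((1 - (c1 s p.1).1) • o.H p + z.2.1.2 + jcm (c1 s p.1) z.2.2)) := by
    unfold pair jcm; fun_prop
  exact (((h1 _).comp (0 : J2 ℂ × T3 ℂ) (ha'.prodMk differentiableAt_id)).add
    (hb'.const_mul _)).sub (hb''.const_mul _)

lemma star_d012 (χ : ℝ → ℝ) (w : ℝ) : star (d012 χ w) = d012 χ w := by
  simp [d012, Prod.star_def]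

lemma star_jm1 {c j : T3 ℂ} (hc : star c = c) (hj : star j = j) : star (jm1 c j) = jm1 c j := by
  conv_rhs => rw [← hc, ← hj]
  simp [jm1, Prod.star_def]

lemma star_jcm {c j : T3 ℂ} (hc : star c = c) (hj : star j = j) : star (jcm c j) = jcm c j := by
  conv_rhs => rw [← hc, ← hj]
  simp [jcm, Prod.star_def]

lemma star_pair {a h : T3 ℂ} (ha : star a = a) (hh : star h = h) : star (pair a h) = pair a h := by
  conv_rhs => rw [← ha, ← hh]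
  simp [pair, Prod.star_def]

lemma star_COL (ho : o.Good s) (p : ℝ × ℝ) {jv : J2 ℂ} {k : T3 ℂ} (hv : star jv = jv)
    (hk : star k = k) : star (o.COL s p jv k) = o.COL s p jv k := by
  have h1 : star (c1 s p.1) = c1 s p.1 := star_d012 _ _
  have h2 : star (c2 s p.1) = c2 s p.1 := star_d012 _ _
  have h3 : star jv.1 = jv.1 := congrArg Prod.fst hv
  have h4 : star jv.2 = jv.2 := congrArg Prod.snd hv
  have h5 : star (u1j s p.1 jv.1 k) = u1j s p.1 jv.1 k := by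
    rw [u1j, star_add, star_jm1 h2 h3, star_jm1 h1 hk]
  have h6 : star (c1 s p.1).1 = (c1 s p.1).1 := congrArg Prod.fst h1
  have h7 : star (rh s p.1) = rh s p.1 := Complex.conj_ofReal _
  have h8 : star ((1 - (c1 s p.1).1) • o.H p + jv.2 + jcm (c1 s p.1) k) =
      (1 - (c1 s p.1).1) • o.H p + jv.2 + jcm (c1 s p.1) k := by
    rw [star_add, star_add, star_smul, star_sub, star_one, h6, ho.rH, h4, star_jcm h1 hk]
  rw [EndOp.COL, star_sub, star_add, star_mul', star_mul', star_sub, star_sub, star_one, h6, h7,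
    star_pair (ho.ra _ _ h5) h8, ho.rb _ _ h5, ho.rb _ _ hk]

end op

variable {σ M : Type} [TopologicalSpace M] [ChartedSpace E2 M] {𝒞 : Cov E2 M}
  {β Λ : Type} [Fintype β] [Fintype σ] [Fintype Λ]

/-- the system with arbitrary first order jets on the collars -/
def sysJ (c : CoreOp σ β M) (s : ℝ) (e : Λ → M → ℝ) (x : XX 𝒞 β Λ) (k : σ → ℝ × ℝ → T3 ℂ)
    (y : M) : ℂ :=
  (c.𝓔.core (s + 2) y : ℝ) * c.N (fnC x.1) x.2.1 y +
    ∑ j, (((c.𝓔.cut j (s + 2) y - c.𝓔.cut j (s + 6) y : ℝ) : ℂ) * c.𝓔.onEnd j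
        (fun p => (c.op j).COL s p (pj (fun q => fnC x.1 (c.𝓔.Y j q)) p) (k j p)) y +
      (c.𝓔.cut j (s + 6) y : ℝ) * c.𝓔.lapE j (fnC x.1) y) - ∑ i, x.2.2 i * e i y

lemma sysFun_eq (c : CoreOp σ β M) (s : ℝ) (e : Λ → M → ℝ) (x : XX 𝒞 β Λ)
    (μ : σ → ℝ × ℝ → ℂ) (y : M) :
    c.sysFun s e (fnC x.1) x.2.1 x.2.2 μ y = sysJ c s e x (fun j p => (pj (μ j) p).1) y := rfl

/-- real unknowns -/
def IsR (x : XX 𝒞 β Λ) : Prop := x.1.im = 0 ∧ star x.2 = x.2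

lemma IsR.smul {x : XX 𝒞 β Λ} (h : IsR x) (t : ℝ) : IsR ((t : ℂ) • x) :=
  ⟨by
    have h1 : x.1.im = 0 := h.1
    show ((t : ℂ) • x.1).im = 0
    rw [Cx.im_smul, h1, Complex.ofReal_im, zero_smul, smul_zero, add_zero], by
    show star ((t : ℂ) • x.2) = (t : ℂ) • x.2
    rw [star_smul, h.2]; simp⟩

variable {c : CoreOp σ β M} {s : ℝ} {e : Λ → M → ℝ}

lemma cut_ne (hc : c.Good s) {j : σ} {y : M}
    (h : c.𝓔.cut j (s + 2) y - c.𝓔.cut j (s + 6) y ≠ 0) :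
    y ∈ (c.𝓔.φ j).source ∧ (lp (c.𝓔.φ j y)).1 ∈ Ioo s (s + 9) := by
  have hy : y ∈ (c.𝓔.φ j).source := by
    by_contra h1
    exact h (by rw [Ends.cut_of_notMem h1, Ends.cut_of_notMem h1, sub_self])
  rw [Ends.cut_of_mem hy, Ends.cut_of_mem hy] at h
  have h0 : c.𝓔.φ j y ≠ 0 := fun h0 => h (by rw [h0, Ends.stp_zero, Ends.stp_zero, sub_self])
  rw [← pol_lp h0, Ends.stp_pol, Ends.stp_pol] at h
  refine ⟨hy, not_le.1 fun h1 => h ?_, not_le.1 fun h1 => h ?_⟩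
  · rw [st_zero (by linarith), st_zero (by linarith), sub_self]
  · rw [st_one (by linarith), st_one (by linarith), sub_self]

variable [T2Space M] [RSm E2 M]

lemma ev_small (y : M) : ∀ᶠ x : XX 𝒞 β Λ in 𝓝 0, ‖fnC x.1 y‖ < 1 ∧ ‖x.2.1‖ < 1 := by
  filter_upwards [ball_mem_nhds (0 : XX 𝒞 β Λ) one_half_pos] with x hx
  rw [mem_ball_zero_iff] at hx
  exact ⟨by linarith [norm_fnC_le x.1 y, norm_fst_le x],
    by linarith [(norm_fst_le x.2).trans (norm_snd_le x)]⟩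

/-- a function which is holomorphic and zero at the origin and real at small real points -/
structure Nice (F : XX 𝒞 β Λ × T3 ℂ → ℂ) : Prop where
  diff : DifferentiableAt ℂ F 0
  zero : F 0 = 0
  real : ∀ᶠ q in 𝓝 (0 : XX 𝒞 β Λ × T3 ℂ), IsR q.1 → star q.2 = q.2 → (F q).im = 0

lemma Nice.add {F G : XX 𝒞 β Λ × T3 ℂ → ℂ} (hF : Nice F) (hG : Nice G) :
    Nice fun q => F q + G q :=
  ⟨hF.diff.add hG.diff, by rw [hF.zero, hG.zero, add_zero], by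
    filter_upwards [hF.real, hG.real] with q h1 h2 a b
    rw [Complex.add_im, h1 a b, h2 a b, add_zero]⟩

lemma Nice.rmul {F : XX 𝒞 β Λ × T3 ℂ → ℂ} (a : ℝ) (hF : a ≠ 0 → Nice F) :
    Nice fun q => (a : ℂ) * F q := by
  by_cases h : a = 0
  · subst h
    exact ⟨by simp, by simp, Eventually.of_forall fun q _ _ => by simp⟩
  · exact ⟨(hF h).diff.const_mul _, by rw [(hF h).zero, mul_zero], by
      filter_upwards [(hF h).real] with q h1 a b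
      rw [Complex.im_ofReal_mul, h1 a b, mul_zero]⟩

lemma Nice.sum {ι : Type} {F : ι → XX 𝒞 β Λ × T3 ℂ → ℂ} (S : Finset ι) (h : ∀ i, Nice (F i)) :
    Nice fun q => ∑ i ∈ S, F i q :=
  ⟨DifferentiableAt.fun_sum fun i _ => (h i).diff, Finset.sum_eq_zero fun i _ => (h i).zero, by
    filter_upwards [(eventually_all_finset S).2 fun i _ => (h i).real] with q h1 a b
    rw [Complex.im_sum]
    exact Finset.sum_eq_zero fun i hi => h1 i hi a b⟩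

lemma nice_N (hc : c.Good s) {y : M} (hy : y ∈ c.𝓔.reg) :
    Nice fun q : XX 𝒞 β Λ × T3 ℂ => c.N (fnC q.1.1) q.1.2.1 y := by
  have he := chart_mem_atlas E2 y
  have hs := mem_chart_source E2 y
  obtain ⟨L, hL, hr⟩ := exists_chartL he hs 𝒞
  have h1 : ∀ᶠ q : XX 𝒞 β Λ × T3 ℂ in 𝓝 0, c.N (fnC q.1.1) q.1.2.1 y =
      c.Nj (chartAt E2 y) (chartAt E2 y y) (L q.1.1, q.1.2.1) := by
    filter_upwards [(continuous_fst.tendsto (0 : XX 𝒞 β Λ × T3 ℂ)).eventually (ev_small y)]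
      with q hq
    rw [hc.chart _ he y hs hy _ _ (ckAt_fnC' _ _) hq.1 hq.2, hL]
  have h2 : DifferentiableAt ℂ (c.Nj (chartAt E2 y) (chartAt E2 y y)) 0 :=
    (hc.mix _ he y hs hy).hol.self_of_nhds
  have h3 : ((L (0 : XX 𝒞 β Λ × T3 ℂ).1.1, (0 : XX 𝒞 β Λ × T3 ℂ).1.2.1) : J2 ℂ × (β → ℂ)) = 0 := by
    simp
  refine ⟨DifferentiableAt.congr_of_eventuallyEq (DifferentiableAt.comp
    (g := c.Nj (chartAt E2 y) (chartAt E2 y y)) (f := fun q : XX 𝒞 β Λ × T3 ℂ => (L q.1.1, q.1.2.1))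
    0 (by rwa [h3]) (by fun_prop)) h1, ?_, ?_⟩
  · rw [h1.self_of_nhds, h3, hc.base _ he y hs hy]
  · filter_upwards [h1] with q hq a b
    rw [hq]
    exact hc.real _ he y hs hy _ (Prod.ext (hr _ a.1) (congrArg Prod.fst a.2))

lemma nice_COL (hc : c.Good s) (j : σ) {p : ℝ × ℝ} (hp : s < p.1) :
    Nice fun q : XX 𝒞 β Λ × T3 ℂ =>
      (c.op j).COL s p (pj (fun z => fnC q.1.1 (c.𝓔.Y j z)) p) q.2 := by
  obtain ⟨L, hL, hr⟩ := exists_polL c.𝓔 j (hc.lev.trans hp) 𝒞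
  simp only [hL]
  have h3 : ((L (0 : XX 𝒞 β Λ × T3 ℂ).1.1, (0 : XX 𝒞 β Λ × T3 ℂ).2) : J2 ℂ × T3 ℂ) = 0 := by simp
  refine ⟨DifferentiableAt.comp (g := fun q : J2 ℂ × T3 ℂ => (c.op j).COL s p q.1 q.2)
    (f := fun q : XX 𝒞 β Λ × T3 ℂ => (L q.1.1, q.2)) 0
    (by rw [h3]; exact diff_COL (hc.ops j) hp) (by fun_prop), ?_,
    Eventually.of_forall fun q a b => ?_⟩
  · simpa using EndOp.COL_zero (s := s) ((hc.ops j).base p hp)
  · exact Complex.conj_eq_iff_im.1 (star_COL (hc.ops j) p (hr _ a.1) b)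

lemma nice_lap (𝓔 : Ends σ M) {j : σ} {y : M} (hy : y ∈ (𝓔.φ j).source) :
    Nice fun q : XX 𝒞 β Λ × T3 ℂ => 𝓔.lapE j (fnC q.1.1) y := by
  obtain ⟨L, hL, hr⟩ := exists_chartL (𝓔.mem j) hy 𝒞
  simp only [Ends.lapE, hL]
  refine ⟨by fun_prop, by simp, Eventually.of_forall fun q a b => ?_⟩
  have h := hr _ a.1
  have h1 : star (L q.1.1).2.1 = (L q.1.1).2.1 := congrArg (fun z : J2 ℂ => z.2.1) h
  have h2 : star (L q.1.1).2.2.2 = (L q.1.1).2.2.2 := congrArg (fun z : J2 ℂ => z.2.2.2) h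
  rw [Complex.add_im, Complex.conj_eq_iff_im.1 h1, Complex.conj_eq_iff_im.1 h2, add_zero]

lemma nice_sys (hc : c.Good s) (e : Λ → M → ℝ) (y : M) :
    Nice fun q : XX 𝒞 β Λ × T3 ℂ => sysJ c s e q.1 (fun _ _ => q.2) y := by
  have h1 : ∀ i, Nice fun q : XX 𝒞 β Λ × T3 ℂ => q.1.2.2 i := fun i =>
    ⟨by fun_prop, rfl, Eventually.of_forall fun q a b =>
      Complex.conj_eq_iff_im.1 (congrFun (congrArg Prod.snd a.2) i)⟩
  have h2 := ((Nice.rmul (c.𝓔.core (s + 2) y) fun h =>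
    nice_N (𝒞 := 𝒞) (Λ := Λ) hc (Ends.below_reg (Ends.below_of_core_ne h))).add
    (Nice.sum Finset.univ fun j => (Nice.rmul (c.𝓔.cut j (s + 2) y - c.𝓔.cut j (s + 6) y)
      fun h => nice_COL hc j (cut_ne hc h).2.1).add (Nice.rmul (c.𝓔.cut j (s + 6) y) fun h =>
        nice_lap c.𝓔 (j := j) (y := y) (not_not.1 fun h' => h (Ends.cut_of_notMem h'))))).add
    (Nice.sum Finset.univ fun i => Nice.rmul (-e i y) fun _ => h1 i)
  convert h2 using 2 with q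
  rw [sysJ, sub_eq_add_neg, ← Finset.sum_neg_distrib]
  congr 1
  · congr 1
    refine Finset.sum_congr rfl fun j _ => ?_
    by_cases h : c.𝓔.cut j (s + 2) y - c.𝓔.cut j (s + 6) y = 0
    · simp [h]
    · rw [Ends.onEnd, ext0_of_mem (cut_ne hc h).1]
  · refine Finset.sum_congr rfl fun i _ => ?_
    push_cast
    ring

/-- the system sees the jets on the collars at one point only -/
lemma exists_pt (hc : c.Good s) (e : Λ → M → ℝ) (y : M) :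
    ∃ κ : (σ → ℝ × ℝ → T3 ℂ) → T3 ℂ,
      ((∀ k, κ k = 0) ∨ ∃ j, ∃ p : ℝ × ℝ, p.1 ∈ Ioo s (s + 9) ∧ ∀ k, κ k = k j p) ∧
      ∀ (x : XX 𝒞 β Λ) k, sysJ c s e x k y = sysJ c s e x (fun _ _ => κ k) y := by
  by_cases h : ∀ j, c.𝓔.cut j (s + 2) y - c.𝓔.cut j (s + 6) y = 0
  · exact ⟨fun _ => 0, Or.inl fun _ => rfl, fun x k => by simp [sysJ, h]⟩
  push Not at h
  obtain ⟨j, hj⟩ := h
  obtain ⟨h1, h2⟩ := cut_ne hc hj
  refine ⟨fun k => k j (lp (c.𝓔.φ j y)), Or.inr ⟨j, _, h2, fun _ => rfl⟩, fun x k => ?_⟩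
  unfold sysJ
  congr 2
  refine Finset.sum_congr rfl fun j' _ => ?_
  by_cases h3 : y ∈ (c.𝓔.φ j').source
  · obtain rfl := c.𝓔.disj _ _ _ h1 h3
    rw [Ends.onEnd, Ends.onEnd, ext0_of_mem h1, ext0_of_mem h1]
  · rw [Ends.onEnd_of_notMem h3, Ends.onEnd_of_notMem h3]

/-- the linearised system -/
def sysD (c : CoreOp σ β M) (s : ℝ) (e : Λ → M → ℝ) (x : XX 𝒞 β Λ) (k : σ → ℝ × ℝ → T3 ℂ)
    (y : M) : ℂ := deriv (fun t : ℂ => sysJ c s e (t • x) (t • k) y) 0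

lemma exists_ell (hc : c.Good s) (e : Λ → M → ℝ) (y : M) :
    ∃ (l : XX 𝒞 β Λ × T3 ℂ →L[ℂ] ℂ) (κ : (σ → ℝ × ℝ → T3 ℂ) → T3 ℂ),
      ((∀ k, κ k = 0) ∨ ∃ j, ∃ p : ℝ × ℝ, p.1 ∈ Ioo s (s + 9) ∧ ∀ k, κ k = k j p) ∧
      (∀ q, IsR q.1 → star q.2 = q.2 → (l q).im = 0) ∧
      (∀ x k, sysD c s e x k y = l (x, κ k)) ∧
      ∀ (x : ℂ → XX 𝒞 β Λ) (k : ℂ → σ → ℝ × ℝ → T3 ℂ) x₁ a, HasDerivAt x x₁ 0 → x 0 = 0 →
        HasDerivAt (fun t => κ (k t)) a 0 → κ (k 0) = 0 →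
        HasDerivAt (fun t => sysJ c s e (x t) (k t) y) (l (x₁, a)) 0 := by
  obtain ⟨κ, hκ, h⟩ := exists_pt (𝒞 := 𝒞) hc e y
  obtain ⟨Ψ, hn, hΨ⟩ : ∃ Ψ : XX 𝒞 β Λ × T3 ℂ → ℂ, Nice Ψ ∧
      ∀ x k, sysJ c s e x k y = Ψ (x, κ k) := ⟨_, nice_sys hc e y, h⟩
  have key : ∀ (x : ℂ → XX 𝒞 β Λ) (k : ℂ → σ → ℝ × ℝ → T3 ℂ) x₁ a, HasDerivAt x x₁ 0 → x 0 = 0 →
      HasDerivAt (fun t => κ (k t)) a 0 → κ (k 0) = 0 →
      HasDerivAt (fun t => sysJ c s e (x t) (k t) y) (fderiv ℂ Ψ 0 (x₁, a)) 0 :=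
    fun x k x₁ a h1 h2 h3 h4 => by
      simp only [hΨ]
      exact comp_zero hn.diff.hasFDerivAt (h1.prodMk h3) (Prod.ext h2 h4)
  have hs : ∀ (t : ℂ) k, κ (t • k) = t • κ k := fun t k => by
    rcases hκ with h0 | ⟨j, p, -, h0⟩ <;> simp [h0]
  refine ⟨_, κ, hκ, fun q a b => ?_, fun x k => ?_, key⟩
  · refine im_deriv (comp_zero hn.diff.hasFDerivAt (hasDerivAt_ray q) (zero_smul _ _)) ?_
    have h1 : Tendsto (fun t : ℝ => (t : ℂ) • q) (𝓝 0) (𝓝 0) :=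
      (by fun_prop : Continuous fun t : ℝ => (t : ℂ) • q).tendsto' _ _ (by simp)
    filter_upwards [h1.eventually hn.real] with t ht
    refine ht (a.smul t) ?_
    show star ((t : ℂ) • q.2) = (t : ℂ) • q.2
    rw [star_smul, b]; simp
  · refine (key (fun t => t • x) (fun t => t • k) x (κ k) (hasDerivAt_ray x) (zero_smul _ _) ?_
      ?_).deriv
    · simp only [hs]; exact hasDerivAt_ray _
    · rw [hs, zero_smul]

/-- **Chain rule for the system.** -/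
theorem hasDerivAt_sysJ (hc : c.Good s) {x : ℂ → XX 𝒞 β Λ} {k : ℂ → σ → ℝ × ℝ → T3 ℂ}
    {x₁ : XX 𝒞 β Λ} {k₁ : σ → ℝ × ℝ → T3 ℂ} (hx : HasDerivAt x x₁ 0) (h0 : x 0 = 0)
    (hk : ∀ j (p : ℝ × ℝ), p.1 ∈ Ioo s (s + 9) →
      HasDerivAt (fun t => k t j p) (k₁ j p) 0 ∧ k 0 j p = 0) (y : M) :
    HasDerivAt (fun t => sysJ c s e (x t) (k t) y) (sysD c s e x₁ k₁ y) 0 := by
  obtain ⟨l, κ, hκ, -, h2, h3⟩ := exists_ell (𝒞 := 𝒞) hc e y
  rw [h2]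
  rcases hκ with h | ⟨j, p, hp, h⟩
  · exact h3 x k _ _ hx h0 (by simp only [h]; exact hasDerivAt_const _ _) (h _)
  · exact h3 x k _ _ hx h0 (by simp only [h]; exact (hk j p hp).1) (by rw [h, (hk j p hp).2])

theorem hasDerivAt_sysD (hc : c.Good s) (x : XX 𝒞 β Λ) (k : σ → ℝ × ℝ → T3 ℂ) (y : M) :
    HasDerivAt (fun t : ℂ => sysJ c s e (t • x) (t • k) y) (sysD c s e x k y) 0 :=
  hasDerivAt_sysJ hc (hasDerivAt_ray x) (zero_smul _ _)
    (fun j p _ => ⟨hasDerivAt_ray (k j p), zero_smul _ _⟩) y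

lemma sysJ_zero (hc : c.Good s) {k : σ → ℝ × ℝ → T3 ℂ}
    (hk : ∀ j (p : ℝ × ℝ), p.1 ∈ Ioo s (s + 9) → k j p = 0) (y : M) :
    sysJ c s e (0 : XX 𝒞 β Λ) k y = 0 := by
  obtain ⟨κ, hκ, h⟩ := exists_pt (𝒞 := 𝒞) hc e y
  have h1 : κ k = 0 := by
    rcases hκ with h0 | ⟨j, p, hp, h0⟩
    · exact h0 k
    · rw [h0, hk j p hp]
  rw [h, h1]
  exact (nice_sys (𝒞 := 𝒞) hc e y).zero

/-- **Real and imaginary parts of the linearised system.** -/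
theorem sysD_split (hc : c.Good s) {x xr xi : XX 𝒞 β Λ} {k kr ki : σ → ℝ × ℝ → T3 ℂ}
    (hx : x = xr + Complex.I • xi) (hr : IsR xr) (hi : IsR xi)
    (hk : ∀ j (p : ℝ × ℝ), p.1 ∈ Ioo s (s + 9) → k j p = kr j p + Complex.I • ki j p ∧
      star (kr j p) = kr j p ∧ star (ki j p) = ki j p) (y : M) :
    sysD c s e xr kr y = (sysD c s e x k y).re ∧ sysD c s e xi ki y = (sysD c s e x k y).im := by
  obtain ⟨l, κ, hκ, h1, h2, -⟩ := exists_ell (𝒞 := 𝒞) hc e y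
  have h3 : κ k = κ kr + Complex.I • κ ki ∧ star (κ kr) = κ kr ∧ star (κ ki) = κ ki := by
    rcases hκ with h | ⟨j, p, hp, h⟩
    · simp [h]
    · simp only [h]; exact hk j p hp
  have h4 : l (x, κ k) = l (xr, κ kr) + Complex.I * l (xi, κ ki) := by
    rw [← smul_eq_mul, ← map_smul, ← map_add, hx, h3.1]
    rfl
  have h5 := h1 (xr, κ kr) hr h3.2.1
  have h6 := h1 (xi, κ ki) hi h3.2.2
  rw [h2, h2, h2, h4]
  constructor <;> apply Complex.ext <;> simp [h5, h6]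

end Vale.Agent.P218CL
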