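import Vale.Agent.P218CL.Real

/-! # The linear layer: kernel, solvability, derivative of curves of solutions -/

open Set Filter Metric Topology MeasureTheory
open scoped ContDiff

noncomputable section

set_option linter.unusedSectionVars false
set_option linter.unusedVariables false
set_option maxSynthPendingDepth 3

namespace Vale.Agent.P218CL

open Vale.Agent.P218VA Vale.Agent.P218MP Vale.Agent.P272.K.LIN Vale.Agent.P218CO
open Vale.Agent.P218CQ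

variable {σ M : Type} [TopologicalSpace M] [ChartedSpace E2 M] {𝒞 : Cov E2 M}
  {β Λ τ ν : Type} [Fintype β] [Fintype σ] [Fintype Λ] [Fintype τ] [Fintype ν]
  {c : CoreOp σ β M} {s δ r : ℝ} {e : Λ → M → ℝ} {e' : τ → M → ℝ}
  {bd : σ → ℝ → (ν → ℂ) →L[ℂ] ℂ} {O : VC 𝒞 → σ → ℝ × ℝ → ℂ} {m : VC 𝒞 → ν → ℂ}

/-- the real part of the unknowns -/
def xre (x : XX 𝒞 β Λ) : XX 𝒞 β Λ := xR x.1.re (fun i => (x.2.1 i).re) fun k => (x.2.2 k).re

/-- the imaginary part of the unknowns -/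
def xim (x : XX 𝒞 β Λ) : XX 𝒞 β Λ := xR x.1.im (fun i => (x.2.1 i).im) fun k => (x.2.2 k).im

lemma x_split (x : XX 𝒞 β Λ) : x = xre x + Complex.I • xim x :=
  Prod.ext (Cx.re_add_im x.1).symm (Prod.ext
    (funext fun i => by simp [xre, xim, xR, mul_comm Complex.I])
    (funext fun i => by simp [xre, xim, xR, mul_comm Complex.I]))

lemma xR_zero : xR (0 : VR 𝒞) (0 : β → ℝ) (0 : Λ → ℝ) = 0 :=
  Prod.ext (map_zero _) (Prod.ext (funext fun _ => Complex.ofReal_zero)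
    (funext fun _ => Complex.ofReal_zero))

/-- the derivative of the first order jets of the base family -/
def kD (O : VC 𝒞 → σ → ℝ × ℝ → ℂ) (v : VC 𝒞) (j : σ) (p : ℝ × ℝ) : T3 ℂ :=
  (fderiv ℂ (fun u => pj (O u j) p) 0 v).1

lemma star_kR {μ : σ → ℝ × ℝ → ℝ} {j : σ} {p : ℝ × ℝ}
    (h : ContDiffAt ℝ 2 (fun q => (μ j q : ℂ)) p) : star (kR μ j p) = kR μ j p :=
  congrArg Prod.fst (star_cj (f := μ j) (Complex.reCLM.contDiff.contDiffAt.comp p h))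

lemma gr_glue (hs : c.𝓔.w0 < s) {v : M → ℝ} {μ : σ → ℝ × ℝ → ℝ} (hμ : ∀ j, Per (μ j)) {C : ℝ}
    (hC : ∀ j (p : ℝ × ℝ), s ≤ p.1 → |μ j p| ≤ C) : c.𝓔.Gr 0 (c.𝓔.glue s v μ) := by
  refine ⟨C, s + 6, fun j p hp => ?_⟩
  rw [Ends.glue_Y (hμ j) (by linarith), st_one (a := s + 5) (by linarith),
    st_one (a := s + 3) (by linarith), Real.rpow_zero, mul_one]
  simpa using hC j p (by linarith)

lemma mul_glue {f v : M → ℝ} {μ : σ → ℝ × ℝ → ℝ} (hf : c.𝓔.Src (s + 2) f) (y : M) :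
    f y * c.𝓔.glue s v μ y = f y * v y := by
  by_cases hy : y ∈ c.𝓔.below (s + 2)
  · rw [Ends.glue_below (Ends.below_mono (by linarith) hy)]
  · rw [hf.2 y hy, zero_mul, zero_mul]

variable [T2Space M] [RSm E2 M]

lemma kD_split (hc : c.Good s) (h : c.BaseFam s δ r bd O m) (v : VC 𝒞) (j : σ) {p : ℝ × ℝ}
    (hp : s < p.1) : kD O v j p = kR (dO O v.re) j p + Complex.I • kR (dO O v.im) j p := by
  rw [kR, kR, h.pj_dO _ j hp, h.pj_dO _ j hp, ← Prod.smul_fst, ← Prod.fst_add, ← map_smul,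
    ← map_add, Cx.re_add_im, kD]

lemma hasFDerivAt_pj (h : c.BaseFam s δ r bd O m) (j : σ) {p : ℝ × ℝ} (hp : s < p.1) :
    HasFDerivAt (fun u => (pj (O u j) p).1) ((ContinuousLinearMap.fst ℂ _ _).comp
      (fderiv ℂ (fun u => pj (O u j) p) 0)) 0 :=
  ((h.hol2 j p hp).differentiableAt (ball_mem_nhds _ h.pos)).hasFDerivAt.fst

lemma m_split (h : c.BaseFam s δ r bd O m) {v : VC 𝒞} {a : ν → ℝ}
    (hv : fderiv ℂ m 0 v = fun i => (a i : ℂ)) :
    (fderiv ℂ m 0 (Cx.ofR v.re) = fun i => (a i : ℂ)) ∧ fderiv ℂ m 0 (Cx.ofR v.im) = 0 := by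
  rw [← Cx.re_add_im v, map_add, map_smul] at hv
  have h1 : fderiv ℂ m 0 (Cx.ofR v.im) = 0 := funext fun i => by
    have h2 := congrArg Complex.im (congrFun hv i)
    have h3 := h.im_fderiv_m v.re i
    have h4 := h.im_fderiv_m v.im i
    simp only [Pi.add_apply, Pi.smul_apply, smul_eq_mul, Complex.add_im, Complex.mul_im,
      Complex.I_re, Complex.I_im, Complex.ofReal_im, h3, h4] at h2
    exact Complex.ext (by simpa using h2) h4
  rw [h1, smul_zero, add_zero] at hv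
  exact ⟨hv, h1⟩

/-- the derivative of the system along a ray -/
theorem hasDerivAt_sys (hc : c.Good s) (h : c.BaseFam s δ r bd O m) (x : XX 𝒞 β Λ) (y : M) :
    HasDerivAt (fun t : ℂ => c.sysFun s e (fnC (t • x).1) (t • x).2.1 (t • x).2.2
      (O (t • x).1) y) (sysD c s e x (kD O x.1) y) 0 :=
  hasDerivAt_sysJ (k := fun t j p => (pj (O (t • x).1 j) p).1) hc (hasDerivAt_ray x)
    (zero_smul _ _) (fun j p hp => ⟨comp_zero (hasFDerivAt_pj h j hp.1) (hasDerivAt_ray x.1)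
      (zero_smul _ _), by
        simp only [zero_smul, Prod.fst_zero, h.pj_zero j hp.1]⟩) y

lemma sysD_re_im (hc : c.Good s) (h : c.BaseFam s δ r bd O m) (x : XX 𝒞 β Λ) (y : M) :
    sysD c s e (xre x) (kR (dO O x.1.re)) y = (sysD c s e x (kD O x.1) y).re ∧
      sysD c s e (xim x) (kR (dO O x.1.im)) y = (sysD c s e x (kD O x.1) y).im :=
  sysD_split hc (x_split x) (isR_xR _ _ _) (isR_xR _ _ _) (fun j p hp =>
    ⟨kD_split hc h _ j hp.1, star_kR ((h.linEnd_dO hc _ j).cd p hp.1),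
      star_kR ((h.linEnd_dO hc _ j).cd p hp.1)⟩) y

variable [CompactSpace M] [MeasurableSpace M] [OpensMeasurableSpace M] {μ0 : Measure M}

theorem ker_real (h : Setup c s μ0 e e' δ r bd O m) (hi : c.LinInj μ0 e e') {v : VR 𝒞}
    {B : β → ℝ} {l : Λ → ℝ} (h1 : ∀ y, sysD c s e (xR v B l) (kR (dO O v)) y = 0)
    (h2 : fderiv ℂ m 0 (Cx.ofR v) = 0) (h3 : ∀ i, ∫ y, e' i y * fnR v y ∂μ0 = 0) :
    xR v B l = 0 := by
  have hc := h.good
  have hμ := h.fam.linEnd_dO hc v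
  have h4 := linSol_real (f := fun _ => 0) hc h.src (fun _ _ => rfl) hμ
    (fun y => (h1 y).trans Complex.ofReal_zero.symm)
  simp only [zero_add] at h4
  obtain ⟨a1, a2, a3⟩ := hi _ _ _ h4
    (gr_glue hc.lev (h.fam.per_dO v) fun j p hp => h.fam.abs_dO_le v j hp)
    fun i => by simp only [mul_glue (h.src' i), h3]
  have a4 := (zero_real hc h.src hμ h1 (fun j θ => Complex.ofReal_injective (by
    rw [← h.fam.fderiv_ofR v j (p := (s, θ)) le_rfl, h.fam.fderiv_bdry, h2, map_zero,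
      Complex.ofReal_zero])) a1).1
  rw [a2, a3, a4, xR_zero]

lemma exists_momL' (h : Setup c s μ0 e e' δ r bd O m) :
    ∃ L : VC 𝒞 →L[ℂ] (τ → ℂ), (∀ v, mom μ0 e' (fnC v) = L v) ∧
      ∀ (v : VC 𝒞) (a : τ → ℝ), (L v = fun i => (a i : ℂ)) → ∀ i,
        ∫ x, e' i x * fnR v.re x ∂μ0 = a i ∧ ∫ x, e' i x * fnR v.im x ∂μ0 = 0 := by
  have := h.fin
  obtain ⟨L, h1, h2⟩ := exists_momL μ0 (fun i => ckFn_continuous (h.src' i).1) 𝒞
  refine ⟨L, h1, fun v a ha i => ?_⟩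
  have h3 := (h2 v i).symm.trans (congrFun ha i)
  exact ⟨by simpa using congrArg Complex.re h3, by simpa using congrArg Complex.im h3⟩

/-- **The linearised system is injective.** -/
theorem ker_zero (h : Setup c s μ0 e e' δ r bd O m) (hi : c.LinInj μ0 e e') (x : XX 𝒞 β Λ)
    (h1 : ∀ y, HasDerivAt (fun t : ℂ => c.sysFun s e (fnC (t • x).1) (t • x).2.1 (t • x).2.2
      (O (t • x).1) y) 0 0)
    (h2 : fderiv ℂ m 0 x.1 = 0) (h3 : mom μ0 e' (fnC x.1) = 0) : x = 0 := by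
  have h4 : ∀ y, sysD c s e x (kD O x.1) y = 0 := fun y =>
    (hasDerivAt_sys h.good h.fam x y).unique (h1 y)
  obtain ⟨L, hL, hL'⟩ := exists_momL' h
  have h5 := hL' x.1 0 (by rw [← hL, h3]; rfl)
  have h6 := m_split h.fam (v := x.1) (a := 0) (by rw [h2]; rfl)
  have a1 : xre x = 0 := ker_real h hi
    (fun y => by rw [← xre, (sysD_re_im h.good h.fam x y).1, h4]; rfl) h6.1 fun i => (h5 i).1
  have a2 : xim x = 0 := ker_real h hi
    (fun y => by rw [← xim, (sysD_re_im h.good h.fam x y).2, h4]; rfl) h6.2 fun i => (h5 i).2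
  rw [x_split x, a1, a2, smul_zero, add_zero]

/-- **Solutions of the linearised system solve the linearised geometric equation.** -/
theorem linSol_of_sys (h : Setup c s μ0 e e' δ r bd O m) (x : XX 𝒞 β Λ) (f : M → ℝ)
    (hf : c.𝓔.Src (s + 2) f)
    (h1 : ∀ y, HasDerivAt (fun t : ℂ => c.sysFun s e (fnC (t • x).1) (t • x).2.1 (t • x).2.2
      (O (t • x).1) y) (f y) 0) :
    ∃ (U : M → ℝ) (B : β → ℝ) (l : Λ → ℝ),
      c.LinSol U B (fun y => f y + ∑ k, l k * e k y) ∧ c.𝓔.Gr 0 U :=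
  ⟨_, _, _, linSol_real h.good h.src hf.2 (h.fam.linEnd_dO h.good x.1.re) fun y => by
      have h2 := (sysD_re_im (e := e) h.good h.fam x y).1
      rw [(hasDerivAt_sys h.good h.fam x y).unique (h1 y), Complex.ofReal_re] at h2
      exact h2,
    gr_glue h.good.lev (h.fam.per_dO _) fun j p hp => h.fam.abs_dO_le _ j hp⟩

/-- **The derivative of a curve of solutions through the base solution.** -/
theorem lin_of (h : Setup c s μ0 e e' δ r bd O m) (hi : c.LinInj μ0 e e') {ρ ε C : ℝ}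
    (hρ : 0 < ρ) {sol : (VC 𝒞 → σ → ℝ × ℝ → ℂ) → (VC 𝒞 → ν → ℂ) → (τ → ℂ) → XX 𝒞 β Λ}
    (spec : ∀ O' m' z, Adm s δ ε O m O' m' → ‖z‖ ≤ ε → sol O' m' z ∈ ball (0 : XX 𝒞 β Λ) ρ ∧
      (∀ y, c.sysFun s e (fnC (sol O' m' z).1) (sol O' m' z).2.1 (sol O' m' z).2.2
        (O' (sol O' m' z).1) y = 0) ∧ m' (sol O' m' z).1 = 0 ∧
      mom μ0 e' (fnC (sol O' m' z).1) = z)
    (cmp : ∀ O' m' z, Adm s δ ε O m O' m' → ‖z‖ ≤ ε → ∀ x ∈ ball (0 : XX 𝒞 β Λ) ρ,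
      ∀ μ : σ → ℝ × ℝ → ℂ, (∀ j, Col s (μ j)) →
      (∀ y, c.sysFun s e (fnC x.1) x.2.1 x.2.2 μ y = 0) →
      ∀ η, 0 ≤ η → (∀ j (p : ℝ × ℝ), p.1 ∈ Ioo s (s + 9) → ‖pj (μ j) p - pj (O' x.1 j) p‖ ≤ η) →
      ‖sol O' m' z - x‖ ≤ C * (η + ‖m' x.1‖ + ‖mom μ0 e' (fnC x.1) - z‖))
    (hol : ∀ (Ω : Set ℂ) (O' : ℂ → VC 𝒞 → σ → ℝ × ℝ → ℂ) (m' : ℂ → VC 𝒞 → ν → ℂ)
      (z : ℂ → τ → ℂ), AdmFam s δ ε O m Ω O' m' z →
      DifferentiableOn ℂ (fun a => sol (O' a) (m' a) (z a)) Ω) :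
    ∀ (Ω : Set ℂ) (O' : ℂ → VC 𝒞 → σ → ℝ × ℝ → ℂ) (m' : ℂ → VC 𝒞 → ν → ℂ) (z : ℂ → τ → ℂ),
    AdmFam s δ ε O m Ω O' m' z → 0 ∈ Ω → Adm s δ 0 O m (O' 0) (m' 0) → z 0 = 0 →
    ∀ (y : σ → ℝ × ℝ → ℝ) (m₁ : ν → ℝ) (z₁ : τ → ℝ),
    (∀ j, LinEnd (c.op j) s 0 fun p => (y j p : ℂ)) →
    (∀ j θ, (y j (s, θ) : ℂ) = bd j θ fun i => (m₁ i : ℂ)) →
    (∀ j (p : ℝ × ℝ), p.1 ∈ Ioo s (s + 9) →
      HasDerivAt (fun t => (pj (O' t 0 j) p).1) (pj (fun q => (y j q : ℂ)) p).1 0) →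
    HasDerivAt (fun t => m' t 0) (fun i => (m₁ i : ℂ)) 0 →
    HasDerivAt z (fun i => (z₁ i : ℂ)) 0 →
    ∃ (v : VR 𝒞) (B : β → ℝ) (l : Λ → ℝ),
      HasDerivAt (fun t => sol (O' t) (m' t) (z t))
        (Cx.ofR v, fun i => (B i : ℂ), fun k => (l k : ℂ)) 0 ∧
      c.LinSol (c.𝓔.glue s (fnR v) fun j p => dO O v j p + y j p) B
        (fun x => ∑ k, l k * e k x) ∧
      (∀ i, ∫ x, e' i x * fnR v x ∂μ0 = z₁ i) ∧
      ((∀ x ∈ c.𝓔.reg, c.𝓔.glue s (fnR v) (fun j p => dO O v j p + y j p) x = 0) →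
        ∀ j (p : ℝ × ℝ), s ≤ p.1 → y j p = 0) := by
  intro Ω O' m' z hA h0 hA0 hz0 y m₁ z₁ hy hyb hyO hm hz
  have hc := h.good
  have hF := h.fam
  have hΩ : Ω ∈ 𝓝 (0 : ℂ) := hA.opn.mem_nhds h0
  have hδ : ball (0 : VC 𝒞) δ ∈ 𝓝 (0 : VC 𝒞) := ball_mem_nhds _ hF.pos
  have hδ0 : (0 : VC 𝒞) ∈ ball (0 : VC 𝒞) δ := mem_ball_self hF.pos
  have hΩδ : Ω ×ˢ ball (0 : VC 𝒞) δ ∈ 𝓝 ((0, 0) : ℂ × VC 𝒞) := prod_mem_nhds hΩ hδ
  have e1 : ∀ v ∈ ball (0 : VC 𝒞) δ, ∀ j (p : ℝ × ℝ), p.1 ∈ Ioo s (s + 9) →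
      pj (O' 0 v j) p = pj (O v j) p := fun v hv j p hp =>
    sub_eq_zero.1 (norm_le_zero_iff.1 (hA0.close v hv j p hp))
  have e2 : ∀ v ∈ ball (0 : VC 𝒞) δ, m' 0 v = m v := fun v hv =>
    sub_eq_zero.1 (norm_le_zero_iff.1 (hA0.closem v hv))
  obtain ⟨L, hL, hL'⟩ := exists_momL' h
  set X : ℂ → XX 𝒞 β Λ := fun a => sol (O' a) (m' a) (z a) with hX
  obtain ⟨X₁, hX₁⟩ : ∃ X₁, HasDerivAt X X₁ 0 :=
    ⟨_, ((hol Ω O' m' z hA).differentiableAt hΩ).hasDerivAt⟩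
  have hX0 : X 0 = 0 := by
    have := cmp _ _ _ (hA.adm 0 h0) (hA.small 0 h0) 0 (mem_ball_self hρ) (O' 0 0)
      (hA0.col 0 hδ0) (fun y => sysJ_zero (e := e) hc (fun j p hp => by
        rw [e1 0 hδ0 j p hp, hF.pj_zero j hp.1, Prod.fst_zero]) y) 0 le_rfl
      fun j p hp => by simp
    rw [hL, Prod.fst_zero, map_zero, e2 0 hδ0, hF.mzero, zero_sub, norm_neg,
      show ‖z 0‖ = 0 by rw [hz0, norm_zero]] at this
    simpa using this
  have hγ : HasDerivAt (fun t => (X t).1) X₁.1 0 :=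
    (ContinuousLinearMap.fst ℂ (VC 𝒞) ((β → ℂ) × (Λ → ℂ))).hasFDerivAt.comp_hasDerivAt 0 hX₁
  have hγ0 : (X 0).1 = 0 := by rw [hX0, Prod.fst_zero]
  have hsp : ∀ᶠ t in 𝓝 (0 : ℂ), _ :=
    mem_of_superset hΩ fun t ht => (spec _ _ _ (hA.adm t ht) (hA.small t ht)).2
  have b1 : ∀ q, sysD c s e X₁ (fun j p => kD O X₁.1 j p + kR y j p) q = 0 := fun q => by
    refine (hasDerivAt_sysJ (k := fun t j p => (pj (O' t (X t).1 j) p).1) hc hX₁ hX0
      (fun j p hp => ⟨?_, ?_⟩) q).unique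
      ((hasDerivAt_const (0 : ℂ) (0 : ℂ)).congr_of_eventuallyEq (hsp.mono fun t ht => ht.1 q))
    · exact hasDerivAt_split (F := fun q : ℂ × VC 𝒞 => (pj (O' q.1 q.2 j) p).1)
        ((hA.hol j p hp).differentiableAt hΩδ) (hyO j p hp)
        ((hasFDerivAt_pj hF j hp.1).congr_of_eventuallyEq
          (mem_of_superset hδ fun v hv => congrArg Prod.fst (e1 v hv j p hp))) hγ hγ0
    · show (pj (O' 0 (X 0).1 j) p).1 = 0
      rw [hγ0, e1 0 hδ0 j p hp, hF.pj_zero j hp.1, Prod.fst_zero]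
  have b2 : fderiv ℂ m 0 X₁.1 = fun i => ((-m₁ i : ℝ) : ℂ) := by
    have := (hasDerivAt_split (F := fun q : ℂ × VC 𝒞 => m' q.1 q.2)
      (hA.holm.differentiableAt hΩδ) hm
      ((hF.holm.differentiableAt hδ).hasFDerivAt.congr_of_eventuallyEq
        (mem_of_superset hδ fun v hv => e2 v hv)) hγ hγ0).unique
      ((hasDerivAt_const (0 : ℂ) (0 : ν → ℂ)).congr_of_eventuallyEq (hsp.mono fun t ht => ht.2.1))
    rw [eq_neg_of_add_eq_zero_left this]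
    funext i
    simp
  have b3 := hL' X₁.1 z₁ ((L.hasFDerivAt.comp_hasDerivAt 0 hγ).unique
    (hz.congr_of_eventuallyEq (hsp.mono fun t ht => (hL _).symm.trans ht.2.2)))
  have b4 := m_split hF b2
  have hμ : ∀ j, LinEnd (c.op j) s (c.jv (Cx.ofR X₁.1.re) j)
      fun p => ((dO O X₁.1.re j p + y j p : ℝ) : ℂ) := fun j => by
    have := (hF.linEnd_dO hc X₁.1.re j).add (hc.ops j) (hy j)
    simpa using this
  have b5 := fun q => sysD_split (e := e) (kr := kR fun j p => dO O X₁.1.re j p + y j p)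
    (ki := kR (dO O X₁.1.im)) (k := fun j p => kD O X₁.1 j p + kR y j p) hc (x_split X₁)
    (isR_xR _ _ _) (isR_xR _ _ _) (fun j p hp => ⟨by
      have a1 : kR (fun j p => dO O X₁.1.re j p + y j p) j p =
          kR (dO O X₁.1.re) j p + kR y j p := by
        simp only [kR, Complex.ofReal_add]
        exact congrArg Prod.fst
          (cj_add ((hF.linEnd_dO hc X₁.1.re j).cd p hp.1) ((hy j).cd p hp.1))
      simp only [a1, kD_split hc hF _ j hp.1]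
      abel, star_kR ((hμ j).cd p hp.1), star_kR ((hF.linEnd_dO hc _ j).cd p hp.1)⟩) q
  simp only [b1, Complex.zero_re, Complex.zero_im, Complex.ofReal_zero] at b5
  have b6 : xim X₁ = 0 := ker_real h hi (fun q => (b5 q).2) b4.2 fun i => (b3 i).2
  have b7 : X₁ = xre X₁ := by
    conv_lhs => rw [x_split X₁, b6, smul_zero, add_zero]
  refine ⟨X₁.1.re, fun i => (X₁.2.1 i).re, fun k => (X₁.2.2 k).re, hX₁.congr_deriv b7, ?_,
    fun i => (b3 i).1, fun hz j p hp => ?_⟩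
  · have := linSol_real (f := fun _ => 0) hc h.src (fun _ _ => rfl) hμ
      (fun q => (b5 q).1.trans Complex.ofReal_zero.symm)
    simpa only [zero_add] using this
  · obtain ⟨a1, a2⟩ := zero_real hc h.src hμ (fun q => (b5 q).1) (fun j θ =>
      Complex.ofReal_injective (by
        rw [Complex.ofReal_add, ← hF.fderiv_ofR _ j (p := (s, θ)) le_rfl, hF.fderiv_bdry, b4.1,
          hyb, ← map_add, Complex.ofReal_zero]
        refine (congrArg _ (funext fun i => ?_)).trans (map_zero _)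
        simp)) hz
    have a3 := a2 j p hp
    rw [a1, dO, map_zero, map_zero, Complex.zero_re, zero_add] at a3
    exact a3

end Vale.Agent.P218CL
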