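import Vale.Agent.P218CL.Lin
import Vale.Agent.P218CJ.Fam

/-! # The linearised system and the linearised geometric equation -/

open Set Filter Metric Topology MeasureTheory
open scoped ContDiff

noncomputable section

set_option linter.unusedSectionVars false
set_option linter.unusedVariables false
set_option maxSynthPendingDepth 3

namespace Vale.Agent.P218CL

open Vale.Agent.P218VA Vale.Agent.P218MP Vale.Agent.P272.K.LIN Vale.Agent.P218CO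
open Vale.Agent.P218CQ
open Vale.Agent.P218GA (pol)

variable {σ M : Type} [TopologicalSpace M] [ChartedSpace E2 M] {𝒞 : Cov E2 M}
  {β Λ : Type} [Fintype β] [Fintype σ] [Fintype Λ] {c : CoreOp σ β M} {s : ℝ} {e : Λ → M → ℝ}

lemma ckAt_cmul {U : M → ℂ} {y : M} (h : CkAt 2 U y) (t : ℂ) : CkAt 2 (fun z => t * U z) y :=
  fun e he hx => contDiffAt_const.mul (h e he hx)

lemma ckAt_re {U : M → ℂ} {y : M} (h : CkAt 2 U y) : CkAt 2 (fun z => (U z).re) y :=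
  fun e he hx => Complex.reCLM.contDiff.contDiffAt.comp (e y) (h e he hx)

lemma ev_lt (a : ℂ) (B : β → ℂ) : ∀ᶠ t : ℂ in 𝓝 0, ‖t * a‖ < 1 ∧ ‖fun i => t * B i‖ < 1 := by
  have h1 : ContinuousAt (fun t : ℂ => ‖t * a‖) 0 := by fun_prop
  have h2 : ContinuousAt (fun t : ℂ => ‖t • B‖) 0 := by fun_prop
  exact (h1.eventually (gt_mem_nhds (by simp))).and (h2.eventually (gt_mem_nhds (by simp)))

/-- the linearised operator on an end -/
lemma hasDerivAt_N_Y (hc : c.Good s) {j : σ} {p : ℝ × ℝ} (hp : s + 2 ≤ p.1) {U : M → ℂ}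
    (hU : CkAt 2 U (c.𝓔.Y j p)) (B : β → ℂ) :
    HasDerivAt (fun t : ℂ => c.N (fun y => t * U y) (fun i => t * B i) (c.𝓔.Y j p))
      (c.G j p 0 * (c.op j).L p (pj (fun q => U (c.𝓔.Y j q)) p)) 0 := by
  have hl := hc.lev
  set J := pj (fun q => U (c.𝓔.Y j q)) p with hJ
  have h1 : ContinuousAt (fun t : ℂ => c.G j p (t • J).1) 0 :=
    ContinuousAt.comp (g := fun q : (ℝ × ℝ) × T3 ℂ => c.G j q.1 q.2)
      (f := fun t : ℂ => (p, (t • J).1)) (by simpa using hc.contG j p hp) (by fun_prop)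
  have h2 := hasDerivAt_mul_zero h1 ((hc.ops j).hasDerivAt_E (by linarith) J)
    (by rw [zero_smul]; exact (hc.ops j).base p (by linarith))
  rw [zero_smul] at h2
  refine h2.congr_of_eventuallyEq ?_
  filter_upwards [ev_lt (U (c.𝓔.Y j p)) B] with t ht
  have h3 : pj (fun q => t * U (c.𝓔.Y j q)) p = t • J :=
    cj_csmul t (Ends.contDiffAt_Y (by linarith) hU)
  rw [hc.ends j p hp _ _ (ckAt_cmul hU t) ht.1 ht.2, h3]

lemma sysJ_below {x : XX 𝒞 β Λ} {k : σ → ℝ × ℝ → T3 ℂ} {y : M} (hy : y ∈ c.𝓔.below (s + 2)) :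
    sysJ c s e x k y = c.N (fnC x.1) x.2.1 y - ∑ i, x.2.2 i * e i y := by
  simp [sysJ, Ends.core_below hy, Ends.cut_below hy,
    Ends.cut_below (Ends.below_mono (by linarith : s + 2 ≤ s + 6) hy)]

lemma sysJ_Y (hc : c.Good s) {x : XX 𝒞 β Λ} {k : σ → ℝ × ℝ → T3 ℂ} {j : σ} (hk : Per (k j))
    {p : ℝ × ℝ} (hp : c.𝓔.w0 < p.1) : sysJ c s e x k (c.𝓔.Y j p) =
      ((1 - st (s + 2) p.1 : ℝ) : ℂ) * c.N (fnC x.1) x.2.1 (c.𝓔.Y j p) +
        (((st (s + 2) p.1 - st (s + 6) p.1 : ℝ) : ℂ) *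
          (c.op j).COL s p (pj (fun q => fnC x.1 (c.𝓔.Y j q)) p) (k j p) +
        (st (s + 6) p.1 : ℝ) * c.𝓔.lapE j (fnC x.1) (c.𝓔.Y j p)) -
        ∑ i, x.2.2 i * e i (c.𝓔.Y j p) := by
  have h1 := per_COL (hc.ops j) s (pj_per (per_comp_Y c.𝓔 (fnC x.1) j)) hk
  rw [sysJ, Ends.core_Y hp, Ends.sum_of_mem (Ends.Y_mem j hp) fun j' h => by
    simp [Ends.cut_of_notMem h], Ends.cut_Y hp, Ends.cut_Y hp, Ends.onEnd_Y h1 hp]

lemma glue_ofReal (𝓔 : Ends σ M) (s : ℝ) (v : M → ℝ) (μ : σ → ℝ × ℝ → ℝ) (y : M) :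
    ((𝓔.glue s v μ y : ℝ) : ℂ) = 𝓔.glue s (fun z => (v z : ℂ)) (fun j p => (μ j p : ℂ)) y := by
  have h : ∀ j, ((𝓔.onEnd j (μ j) y : ℝ) : ℂ) = 𝓔.onEnd j (fun p => (μ j p : ℂ)) y := fun j => by
    by_cases h : y ∈ (𝓔.φ j).source
    · rw [Ends.onEnd, Ends.onEnd, ext0_of_mem h, ext0_of_mem h]
    · rw [Ends.onEnd_of_notMem h, Ends.onEnd_of_notMem h, Complex.ofReal_zero]
  simp only [Ends.glue, ← h]
  push_cast
  rfl

variable [T2Space M] [RSm E2 M]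

lemma sysD_below (hc : c.Good s) (x : XX 𝒞 β Λ) (k : σ → ℝ × ℝ → T3 ℂ) {y : M}
    (hy : y ∈ c.𝓔.below (s + 2)) :
    HasDerivAt (fun t : ℂ => c.N (fun z => t * fnC x.1 z) (fun i => t * x.2.1 i) y)
      (sysD c s e x k y + ∑ i, x.2.2 i * e i y) 0 := by
  have h1 := (hasDerivAt_sysD (e := e) hc x k y).add
    ((hasDerivAt_id (0 : ℂ)).mul_const (∑ i, x.2.2 i * (e i y : ℂ)))
  rw [one_mul] at h1
  refine h1.congr_of_eventuallyEq (Eventually.of_forall fun t => ?_)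
  have h2 : ∑ i, (t • x).2.2 i * (e i y : ℂ) = t * ∑ i, x.2.2 i * (e i y : ℂ) := by
    rw [Finset.mul_sum]
    exact Finset.sum_congr rfl fun i _ => mul_assoc _ _ _
  simp only [Pi.add_apply, sysJ_below hy, h2, id, sub_add_cancel]
  rw [← fnC_smul']
  rfl

lemma sysD_Y (hc : c.Good s) (he : ∀ k, c.𝓔.Src (s + 2) (e k)) (x : XX 𝒞 β Λ)
    {k : σ → ℝ × ℝ → T3 ℂ} {j : σ} (hk : Per (k j)) {p : ℝ × ℝ} (hp : s + 2 ≤ p.1) :
    sysD c s e x k (c.𝓔.Y j p) = ((1 - st (s + 2) p.1 : ℝ) : ℂ) *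
      (c.G j p 0 * (c.op j).L p (pj (fun q => fnC x.1 (c.𝓔.Y j q)) p)) +
        (((st (s + 2) p.1 - st (s + 6) p.1 : ℝ) : ℂ) *
          (c.op j).LC s p (pj (fun q => fnC x.1 (c.𝓔.Y j q)) p, k j p) +
        (st (s + 6) p.1 : ℝ) * c.𝓔.lapE j (fnC x.1) (c.𝓔.Y j p)) := by
  have hl := hc.lev
  have hw : c.𝓔.w0 < p.1 := by linarith
  have hs : s < p.1 := by linarith
  refine (hasDerivAt_sysD (e := e) hc x k _).unique ?_
  have h1 := ((hasDerivAt_N_Y (j := j) hc hp (ckAt_fnC x.1 _) x.2.1).const_mul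
    ((1 - st (s + 2) p.1 : ℝ) : ℂ)).add ((((hc.ops j).hasDerivAt_COL hs s
      (pj (fun q => fnC x.1 (c.𝓔.Y j q)) p) (k j p)).const_mul
        ((st (s + 2) p.1 - st (s + 6) p.1 : ℝ) : ℂ)).add (((hasDerivAt_id (0 : ℂ)).mul_const
          (c.𝓔.lapE j (fnC x.1) (c.𝓔.Y j p))).const_mul ((st (s + 6) p.1 : ℝ) : ℂ)))
  rw [one_mul] at h1
  refine h1.congr_of_eventuallyEq (Eventually.of_forall fun t => ?_)
  have h2 : Per ((t • k) j) := fun w θ => congrArg (t • ·) (hk w θ)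
  have h3 : cj u1 u2 (cX (c.𝓔.φ j) fun z => t * fnC x.1 z) (c.𝓔.φ j (c.𝓔.Y j p)) =
      t • cj u1 u2 (cX (c.𝓔.φ j) (fnC x.1)) (c.𝓔.φ j (c.𝓔.Y j p)) :=
    cj_csmul t (ckAt_fnC x.1 _ _ (c.𝓔.mem j) (Ends.Y_mem j hw))
  have h4 : c.𝓔.lapE j (fnC (t • x.1)) (c.𝓔.Y j p) = t * c.𝓔.lapE j (fnC x.1) (c.𝓔.Y j p) := by
    rw [fnC_smul', Ends.lapE, h3, Ends.lapE, mul_add]
    rfl
  show sysJ c s e (t • x) (t • k) (c.𝓔.Y j p) = _
  rw [sysJ_Y hc h2 hw, src_Y hc he _ hp, sub_zero, Prod.smul_fst, h4, pj_fnC_smul _ _ _ _ hw,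
    fnC_smul']
  rfl

/-- the linearised system and the linearised equations on the ends give the linearised
geometric equation -/
theorem linSol_cx (hc : c.Good s) (he : ∀ k, c.𝓔.Src (s + 2) (e k)) {x : XX 𝒞 β Λ}
    {μ : σ → ℝ × ℝ → ℂ} (hμ : ∀ j, LinEnd (c.op j) s (c.jv x.1 j) (μ j))
    (h : ∀ y, y ∉ c.𝓔.below (s + 2) → sysD c s e x (fun j p => (pj (μ j) p).1) y = 0)
    {y : M} (hy : y ∈ c.𝓔.reg) : CkAt 2 (c.𝓔.glue s (fnC x.1) μ) y ∧
      HasDerivAt (fun t : ℂ => c.N (fun z => t * c.𝓔.glue s (fnC x.1) μ z)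
        (fun i => t * x.2.1 i) y)
        (sysD c s e x (fun j p => (pj (μ j) p).1) y + ∑ i, x.2.2 i * e i y) 0 := by
  have hl := hc.lev
  by_cases hb : y ∈ c.𝓔.below (s + 2)
  · have h1 : c.𝓔.glue s (fnC x.1) μ =ᶠ[𝓝 y] fnC x.1 :=
      glue_ev (by linarith) (Ends.below_mono (by linarith) hb)
    refine ⟨(ckAt_fnC x.1 y).congr h1, (sysD_below hc x _ hb).congr_of_eventuallyEq ?_⟩
    filter_upwards [ev_lt (fnC x.1 y) x.2.1] with t ht
    exact N_congr hc hy (h1.mono fun z hz => congrArg (t * ·) hz) (ckAt_cmul (ckAt_fnC x.1 y) t)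
      ht.1 ht.2
  rcases c.𝓔.cases y with h1 | ⟨j, h1⟩ | ⟨j, p, hw, -, rfl⟩
  · exact absurd (Ends.below_of_core h1 _) hb
  · exact absurd h1 (hy j)
  have h0 := h _ hb
  rw [Ends.Y_below hw, not_lt] at hb
  have hs : s < p.1 := by linarith
  have h2 := ckAt_glue_Y (s := s) hw (ckAt_fnC x.1 _) (hμ j).per ((hμ j).cd p hs)
  refine ⟨h2, (hasDerivAt_N_Y hc hb h2 x.2.1).congr_deriv ?_⟩
  have h3 : (c.op j).LE s p ((pj (fun q => fnC x.1 (c.𝓔.Y j q)) p).1, pj (μ j) p) = 0 :=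
    (hμ j).le_eq (hc.ops j) hs
  rw [h0, src_Y hc he _ hb, pj_glue_Y hw (ckAt_fnC x.1 _) (hμ j).per ((hμ j).cd p hs),
    (hc.ops j).L_glue hs, h3, mul_zero, add_zero, add_zero]
  rw [sysD_Y hc he x (fun w θ => by simp only [pj_per (hμ j).per w θ]) hb] at h0
  refine mul_eq_zero_of_right _ ?_
  rcases le_total (s + 6) p.1 with h4 | h4
  · rw [c2_hi h4, zero_mul]
  refine mul_eq_zero_of_right _ ?_
  rw [st_zero h4] at h0
  rcases le_total (s + 3) p.1 with h5 | h5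
  · rw [st_one (by linarith)] at h0
    simpa using h0
  have h6 : ∀ (a : J2 ℂ) (b : T3 ℂ), (c.op j).LC s p (a, b) = (c.op j).L p a := fun a b =>
    ((hc.ops j).hasDerivAt_COL hs s a b).unique (by
      simp only [EndOp.COL_lo _ h5]; exact (hc.ops j).hasDerivAt_E hs a)
  rw [h6] at h0 ⊢
  have h7 : ((1 - st (s + 2) p.1 : ℝ) : ℂ) * c.G j p 0 + (st (s + 2) p.1 : ℝ) ≠ 0 := by
    intro h8
    have h9 := congrArg Complex.re h8
    rw [Complex.add_re, Complex.re_ofReal_mul, Complex.ofReal_re, Complex.zero_re] at h9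
    have a1 := st_nonneg (s + 2) p.1
    have a2 := st_le_one (s + 2) p.1
    have a3 := hc.posG j p hb
    rcases a1.eq_or_lt with a4 | a4
    · rw [← a4] at h9; linarith
    · nlinarith
  refine (mul_eq_zero.1 ?_).resolve_left h7
  push_cast at h0 ⊢
  linear_combination h0

/-- real unknowns -/
def xR (v : VR 𝒞) (B : β → ℝ) (l : Λ → ℝ) : XX 𝒞 β Λ :=
  (Cx.ofR v, fun i => (B i : ℂ), fun k => (l k : ℂ))

lemma isR_xR (v : VR 𝒞) (B : β → ℝ) (l : Λ → ℝ) : IsR (xR v B l) :=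
  ⟨by simp [xR], Prod.ext (funext fun i => Complex.conj_ofReal _)
    (funext fun i => Complex.conj_ofReal _)⟩

/-- the first order jets of real functions on the collars -/
def kR (μ : σ → ℝ × ℝ → ℝ) (j : σ) (p : ℝ × ℝ) : T3 ℂ := (pj (fun q => (μ j q : ℂ)) p).1

theorem linSol_real (hc : c.Good s) (he : ∀ k, c.𝓔.Src (s + 2) (e k)) {v : VR 𝒞} {B : β → ℝ}
    {l : Λ → ℝ} {μ : σ → ℝ × ℝ → ℝ} {f : M → ℝ} (hf : ∀ y, y ∉ c.𝓔.below (s + 2) → f y = 0)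
    (hμ : ∀ j, LinEnd (c.op j) s (c.jv (Cx.ofR v) j) fun p => (μ j p : ℂ))
    (h : ∀ y, sysD c s e (xR v B l) (kR μ) y = f y) :
    c.LinSol (c.𝓔.glue s (fnR v) μ) B fun x => f x + ∑ k, l k * e k x := by
  intro y hy
  obtain ⟨h1, h2⟩ := linSol_cx (x := xR v B l) (μ := fun j p => (μ j p : ℂ)) hc he hμ
    (fun y hy => (h y).trans (by rw [hf y hy, Complex.ofReal_zero])) hy
  have h3 : ∀ z, c.𝓔.glue s (fnC (xR v B l).1) (fun j p => (μ j p : ℂ)) z =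
      (c.𝓔.glue s (fnR v) μ z : ℝ) := fun z => by rw [glue_ofReal, ← fnC_ofR]; rfl
  refine ⟨(ckAt_re h1).congr (Eventually.of_forall fun z => by simp only [h3, Complex.ofReal_re]),
    ?_⟩
  simp only [h3] at h2
  refine h2.congr_deriv ?_
  push_cast
  rw [← h y]
  rfl

/-- if the glued function vanishes then both parts vanish -/
theorem zero_real (hc : c.Good s) (he : ∀ k, c.𝓔.Src (s + 2) (e k)) {v : VR 𝒞} {B : β → ℝ}
    {l : Λ → ℝ} {μ : σ → ℝ × ℝ → ℝ}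
    (hμ : ∀ j, LinEnd (c.op j) s (c.jv (Cx.ofR v) j) fun p => (μ j p : ℂ))
    (h : ∀ y, sysD c s e (xR v B l) (kR μ) y = 0) (hb : ∀ j θ, μ j (s, θ) = 0)
    (h0 : ∀ y ∈ c.𝓔.reg, c.𝓔.glue s (fnR v) μ y = 0) :
    v = 0 ∧ ∀ j (p : ℝ × ℝ), s ≤ p.1 → μ j p = 0 := by
  have hl := hc.lev
  have hper : ∀ j, Per (μ j) := fun j w θ => Complex.ofReal_injective ((hμ j).per w θ)
  have key : ∀ j, (∀ y ∈ closedBall (0 : E2) (Real.exp (-s)), fnR v ((c.𝓔.φ j).symm y) = 0) ∧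
      ∀ p : ℝ × ℝ, s ≤ p.1 → μ j p = 0 := fun j => by
    have e1 : (fun q => fnC (xR v B l).1 (c.𝓔.Y j q)) =
        fun q => (fnR v ((c.𝓔.φ j).symm (pol q)) : ℂ) := by
      show (fun q => fnC (Cx.ofR v) (c.𝓔.Y j q)) = _
      rw [fnC_ofR]; rfl
    refine P218CD.disc_zero (g := fun y => fnR v ((c.𝓔.φ j).symm y)) (hc.ops j)
      (fun y hy => (fnR_ck v).at_target (c.𝓔.mem j) (Ends.closedBall_sub j hl hy))
      (by rw [← e1]; exact hμ j) (hb j) (fun p hp => ?_) fun p hp => ?_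
    · have := h0 _ (Ends.Y_reg j (hl.trans hp))
      rw [Ends.glue_Y (hper j) (hl.trans hp)] at this
      exact this
    · have hw : c.𝓔.w0 < p.1 := by linarith
      have h1 := h (c.𝓔.Y j p)
      rw [sysD_Y hc he _ (fun w θ => by simp only [kR, pj_per (hμ j).per w θ]) (by linarith),
        st_one (a := s + 2) (by linarith), e1, Ends.lapE, Ends.φ_Y j hw] at h1
      have h2 := (((hc.ops j).hasDerivAt_COL (p := p) (by linarith) s
        (pj (fun q => (fnR v ((c.𝓔.φ j).symm (pol q)) : ℂ)) p) (kR μ j p)).const_mul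
          ((1 - st (s + 6) p.1 : ℝ) : ℂ)).add (((hasDerivAt_id (0 : ℂ)).mul_const
          ((cj u1 u2 (fun y => (fnR v ((c.𝓔.φ j).symm y) : ℂ)) (pol p)).2.1 +
            (cj u1 u2 (fun y => (fnR v ((c.𝓔.φ j).symm y) : ℂ)) (pol p)).2.2.2)).const_mul
              ((st (s + 6) p.1 : ℝ) : ℂ))
      refine HasDerivAt.congr_deriv h2 ?_
      have e2 : cX (c.𝓔.φ j) (fnC (xR v B l).1) = fun y => (fnR v ((c.𝓔.φ j).symm y) : ℂ) := by
        show cX (c.𝓔.φ j) (fnC (Cx.ofR v)) = _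
        rw [fnC_ofR]; rfl
      rw [e2] at h1
      simpa using h1
  refine ⟨VR_ext fun y => ?_, fun j => (key j).2⟩
  by_cases hy : y ∈ c.𝓔.below (s + 3)
  · exact (Ends.glue_below (v := fnR v) (μ := μ) hy).symm.trans (h0 y (Ends.below_reg hy))
  · simp only [Ends.below, mem_ofPred_eq, not_forall, not_lt] at hy
    obtain ⟨j, h1, h2⟩ := hy
    rw [← (c.𝓔.φ j).left_inv h1]
    exact (key j).1 _ (mem_closedBall_zero_iff.2 (h2.trans (Real.exp_le_exp.2 (by linarith))))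

end Vale.Agent.P218CL
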